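import Vale.Agent.P143.Cayley

/-!
The free uniform spanning forest is a factor of iid on every Cayley graph and on every unimodular
random graph.
-/

namespace Vale.Agent.Results.P143.FUSFFactor

open MeasureTheory Filter Vale.Agent.P143

theorem result :
    (∀ (Γ : Type) [Group Γ] [Infinite Γ] (S : Finset Γ),
      Subgroup.closure (S : Set Γ) = ⊤ →
      ∃ Φ : (Γ → ℝ) → Sym2 Γ → Bool, Measurable Φ ∧
        (∀ (γ : Γ) (U : Γ → ℝ) (e : Sym2 Γ),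
          Φ (fun v => U (γ⁻¹ * v)) (e.map (γ * ·)) = Φ U e) ∧
        IsFUSF (cayley S) ((iidUnif Γ).map Φ)) ∧
    (∃ Φ : (Sym2 ℕ → Bool) → (ℕ → ℝ) → Sym2 ℕ → Bool, Measurable (Function.uncurry Φ) ∧
      (∀ (φ : ℕ ≃ ℕ) (a : Sym2 ℕ → Bool) (U : ℕ → ℝ) (e : Sym2 ℕ),
        Φ (relabel φ a) (U ∘ φ.symm) (e.map φ) = Φ a U e) ∧
      ∀ P : Measure ((Sym2 ℕ → Bool) × ℕ), IsURG P →
        ∀ᵐ x ∂P, IsFUSF (graphOf x.1) ((iidUnif ℕ).map (Φ x.1))) ∧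
    (∀ a : Sym2 ℕ → Bool, Good a →
      (∃ H, IsExhaustion (graphOf a) H) ∧ ∃! μ, IsFUSF (graphOf a) μ) :=
  ⟨fun _ _ _ S hgen => cayley_factor S hgen,
    ⟨factorMap, measurable_factorMap, factorMap_relabel, fun _ hP => urg_factor hP⟩,
    fun a ha => ⟨exists_exhaustion ha, fusf a, isFUSF_fusf ha, fun _ hμ => isFUSF_unique ha hμ⟩⟩

end Vale.Agent.Results.P143.FUSFFactor
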